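import Vale.Agent.H28.P355.Defs

/-!
P355, part (A): a complete set of seven mutually unbiased bases of `ℂ^6` all of whose projectors
have entries in `K` forces `i ∈ K`.
-/

namespace Vale.Agent.H28.P355

open scoped ComplexConjugate
open Matrix

abbrev E6 := EuclideanSpace ℂ (Fin 6)

/-- projector entries -/
noncomputable def pr (v : E6) (c : Fin 6 × Fin 6) : ℂ := v c.1 * conj (v c.2)

theorem inner_eq (v w : E6) : inner ℂ v w = ∑ k, conj (v k) * w k := by
  simp only [PiLp.inner_apply, RCLike.inner_apply]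
  exact Finset.sum_congr rfl fun k _ => mul_comm _ _

theorem pr_pr (v w : E6) : ∑ c, pr v c * conj (pr w c) = ((‖inner ℂ v w‖ ^ 2 : ℝ) : ℂ) := by
  have h1 : ((‖inner ℂ v w‖ ^ 2 : ℝ) : ℂ) = inner ℂ v w * conj (inner ℂ v w) := by
    rw [Complex.mul_conj, Complex.normSq_eq_norm_sq]
  rw [h1, inner_eq, map_sum, mul_comm, Finset.sum_mul_sum, Fintype.sum_prod_type]
  refine Finset.sum_congr rfl fun k _ => Finset.sum_congr rfl fun l _ => ?_
  simp only [pr, map_mul, Complex.conj_conj]
  ring

theorem pr_diag (v : E6) : ∑ k, pr v (k, k) = ((‖v‖ ^ 2 : ℝ) : ℂ) := by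
  have h1 : ((‖v‖ ^ 2 : ℝ) : ℂ) = inner ℂ v v := by
    rw [inner_self_eq_norm_sq_to_K]; norm_cast
  rw [h1, inner_eq]
  refine Finset.sum_congr rfl fun k _ => ?_
  simp only [pr]
  ring

/-- Helmert vectors -/
def hel : Fin 5 → Fin 6 → ℤ :=
  ![![1, -1, 0, 0, 0, 0], ![1, 1, -2, 0, 0, 0], ![1, 1, 1, -3, 0, 0], ![1, 1, 1, 1, -4, 0],
    ![1, 1, 1, 1, 1, -5]]

/-- their square norms -/
def hn : Fin 5 → ℤ := ![2, 6, 12, 20, 30]

theorem hel_sum (s : Fin 5) : ∑ j, hel s j = 0 := by
  revert s; decide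

theorem hel_mul (s t : Fin 5) : ∑ j, hel s j * hel t j = if s = t then hn s else 0 := by
  revert s t; decide

theorem hel_sumC (s : Fin 5) : ∑ j, (hel s j : ℂ) = 0 := by
  have := hel_sum s
  exact_mod_cast this

theorem hel_mulC (s t : Fin 5) :
    ∑ j, (hel s j : ℂ) * (hel t j : ℂ) = if s = t then (hn s : ℂ) else 0 := by
  have := hel_mul s t
  split_ifs at this ⊢ with h
  · exact_mod_cast this
  · exact_mod_cast this

variable (B : Fin 7 → OrthonormalBasis (Fin 6) ℂ E6)

/-- the 36 Hermitian matrices -/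
noncomputable def X : Option (Fin 7 × Fin 5) → Fin 6 × Fin 6 → ℂ
  | none, c => if c.1 = c.2 then 1 else 0
  | some (a, s), c => ∑ j, (hel s j : ℂ) * pr (B a j) c

/-- square norms of the rows -/
def gg : Option (Fin 7 × Fin 5) → ℤ
  | none => 6
  | some (_, s) => hn s

theorem pr_swap (v : E6) (c : Fin 6 × Fin 6) : conj (pr v c) = pr v c.swap := by
  simp only [pr, map_mul, Complex.conj_conj, Prod.fst_swap, Prod.snd_swap]
  ring

theorem X_swap (r : Option (Fin 7 × Fin 5)) (c : Fin 6 × Fin 6) :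
    conj (X B r c) = X B r c.swap := by
  rcases r with _ | ⟨a, s⟩
  · simp only [X, Prod.fst_swap, Prod.snd_swap]
    by_cases h : c.1 = c.2
    · rw [if_pos h, if_pos h.symm, map_one]
    · rw [if_neg h, if_neg (Ne.symm h), map_zero]
  · simp only [X, map_sum, map_mul, pr_swap, map_intCast]

theorem X_none_sum (a : Fin 7) (s : Fin 5) :
    ∑ c, X B none c * X B (some (a, s)) c = 0 := by
  have h1 : ∀ j, ∑ c : Fin 6 × Fin 6, (if c.1 = c.2 then (1 : ℂ) else 0) * pr (B a j) c = 1 := by
    intro j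
    rw [Fintype.sum_prod_type]
    have h2 : ∀ k : Fin 6, ∑ l : Fin 6, (if (k, l).1 = (k, l).2 then (1 : ℂ) else 0) *
        pr (B a j) (k, l) = pr (B a j) (k, k) := by
      intro k
      rw [Finset.sum_eq_single k]
      · simp
      · intro l _ hl
        simp [Ne.symm hl]
      · intro h
        exact absurd (Finset.mem_univ _) h
    simp_rw [h2]
    rw [pr_diag, (B a).norm_eq_one]
    norm_num
  simp only [X, Finset.mul_sum]
  rw [Finset.sum_comm]
  have h3 : ∀ j, ∑ c : Fin 6 × Fin 6, (if c.1 = c.2 then (1 : ℂ) else 0) *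
      ((hel s j : ℂ) * pr (B a j) c) = (hel s j : ℂ) := by
    intro j
    calc _ = (hel s j : ℂ) * ∑ c : Fin 6 × Fin 6, (if c.1 = c.2 then (1 : ℂ) else 0) *
          pr (B a j) c := by
          rw [Finset.mul_sum]
          refine Finset.sum_congr rfl fun c _ => ?_
          ring
      _ = _ := by rw [h1, mul_one]
  simp_rw [h3]
  exact hel_sumC s

theorem gram (hB : MUB 6 7 B) (r r' : Option (Fin 7 × Fin 5)) :
    ∑ c, X B r c * conj (X B r' c) = if r = r' then (gg r : ℂ) else 0 := by
  rcases r with _ | ⟨a, s⟩ <;> rcases r' with _ | ⟨b, t⟩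
  · rw [if_pos rfl]
    simp only [X, gg, Fintype.sum_prod_type]
    simp
  · rw [if_neg (by simp)]
    have := X_none_sum B b t
    have h2 : ∑ c, X B none c * conj (X B (some (b, t)) c) =
        conj (∑ c, X B none c * X B (some (b, t)) c) := by
      rw [map_sum]
      refine Finset.sum_congr rfl fun c _ => ?_
      rw [map_mul]
      congr 1
      simp only [X]
      split_ifs <;> simp
    rw [h2, this, map_zero]
  · rw [if_neg (by simp)]
    have := X_none_sum B a s
    rw [← this]
    refine Finset.sum_congr rfl fun c _ => ?_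
    rw [mul_comm]
    congr 1
    simp only [X]
    split_ifs <;> simp
  · have h1 : ∑ c, X B (some (a, s)) c * conj (X B (some (b, t)) c) =
        ∑ j, ∑ i, (hel s j : ℂ) * (hel t i : ℂ) * ((‖inner ℂ (B a j) (B b i)‖ ^ 2 : ℝ) : ℂ) := by
      simp only [X, map_sum, map_mul, map_intCast, Finset.sum_mul_sum]
      rw [Finset.sum_comm]
      refine Finset.sum_congr rfl fun j _ => ?_
      rw [Finset.sum_comm]
      refine Finset.sum_congr rfl fun i _ => ?_
      rw [← pr_pr, Finset.mul_sum]
      refine Finset.sum_congr rfl fun c _ => ?_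
      ring
    rw [h1]
    by_cases hab : a = b
    · subst hab
      have h2 : ∀ j i, ((‖inner ℂ (B a j) (B a i)‖ ^ 2 : ℝ) : ℂ) = if j = i then 1 else 0 := by
        intro j i
        rw [(B a).inner_eq_ite]
        split_ifs <;> simp
      simp_rw [h2]
      have h3 : ∀ j, ∑ i, (hel s j : ℂ) * (hel t i : ℂ) * (if j = i then (1 : ℂ) else 0) =
          (hel s j : ℂ) * (hel t j : ℂ) := by
        intro j
        rw [Finset.sum_eq_single j]
        · simp
        · intro i _ hi
          simp [Ne.symm hi]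
        · intro h
          exact absurd (Finset.mem_univ _) h
      simp_rw [h3]
      rw [hel_mulC]
      by_cases hst : s = t
      · subst hst
        simp [gg]
      · rw [if_neg hst, if_neg]
        intro h
        apply hst
        have := Option.some.inj h
        exact (Prod.mk.inj this).2
    · have h2 : ∀ j i, ((‖inner ℂ (B a j) (B b i)‖ ^ 2 : ℝ) : ℂ) = 1 / 6 := by
        intro j i
        rw [hB a b hab j i]
        norm_num
      simp_rw [h2]
      rw [if_neg]
      · have h4 : ∑ j, ∑ i, (hel s j : ℂ) * (hel t i : ℂ) * (1 / 6) =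
            (∑ j, (hel s j : ℂ)) * (∑ i, (hel t i : ℂ)) * (1 / 6) := by
          rw [Finset.sum_mul_sum, Finset.sum_mul]
          refine Finset.sum_congr rfl fun j _ => ?_
          rw [Finset.sum_mul]
        rw [h4, hel_sumC]
        ring
      · intro h
        apply hab
        have := Option.some.inj h
        exact (Prod.mk.inj this).1

theorem sgn : Equiv.Perm.sign (Equiv.prodComm (Fin 6) (Fin 6)) = -1 := by
  rw [Equiv.Perm.sign_of_pow_two_eq_one]
  · have h1 : Fintype.card (Function.fixedPoints (Equiv.prodComm (Fin 6) (Fin 6))) = 6 := by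
      decide +kernel
    rw [h1]
    decide +kernel
  · ext ⟨a, b⟩ <;> rfl

theorem gg_prod : ∏ r, gg r = (6 ^ 4 * 120 ^ 7) ^ 2 := by
  rw [Fintype.prod_option, Fintype.prod_prod_type]
  have : ∏ s, hn s = 86400 := by decide
  simp only [gg, this]
  norm_num

theorem I_mem_of_complete (K : Subfield ℂ) (hB : MUB 6 7 B)
    (hK : ∀ a j, Over (K : Set ℂ) (B a j)) : Complex.I ∈ K := by
  have hc : Fintype.card (Option (Fin 7 × Fin 5)) = Fintype.card (Fin 6 × Fin 6) := by simp
  let e : Option (Fin 7 × Fin 5) ≃ Fin 6 × Fin 6 := Fintype.equivOfCardEq hc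
  let M : Matrix (Fin 6 × Fin 6) (Fin 6 × Fin 6) ℂ := fun c c' => X B (e.symm c) c'
  have h1 : M * Mᴴ = diagonal fun c => (gg (e.symm c) : ℂ) := by
    ext c c'
    rw [Matrix.mul_apply, Matrix.diagonal_apply]
    have := gram B hB (e.symm c) (e.symm c')
    simp only [EmbeddingLike.apply_eq_iff_eq] at this
    exact this
  have h2 : M.det * conj M.det = ((6 ^ 4 * 120 ^ 7 : ℤ) : ℂ) ^ 2 := by
    have h3 := congrArg Matrix.det h1
    rw [Matrix.det_mul, Matrix.det_conjTranspose, Matrix.det_diagonal] at h3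
    have h4 : ∏ c, (gg (e.symm c) : ℂ) = ∏ r, (gg r : ℂ) :=
      Equiv.prod_comp e.symm (fun r => (gg r : ℂ))
    have h5 : ∏ r, (gg r : ℂ) = ((6 ^ 4 * 120 ^ 7 : ℤ) : ℂ) ^ 2 := by
      have := gg_prod
      exact_mod_cast this
    rw [h4, h5] at h3
    exact h3
  have h6 : conj M.det = - M.det := by
    have h7 : (starRingEnd ℂ).mapMatrix M = M.submatrix id (Equiv.prodComm (Fin 6) (Fin 6)) := by
      ext c c'
      exact X_swap B (e.symm c) c'
    rw [RingHom.map_det, h7, Matrix.det_permute', sgn]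
    simp
  have h8 : M.det ∈ K := by
    have h9 : ∀ r c, X B r c ∈ K := by
      intro r c
      rcases r with _ | ⟨a, s⟩
      · simp only [X]
        split_ifs
        · exact K.one_mem
        · exact K.zero_mem
      · simp only [X]
        exact sum_mem fun j _ => K.mul_mem (intCast_mem K _) (hK a j c.1 c.2)
    rw [Matrix.det_apply']
    exact sum_mem fun σ _ => K.mul_mem (intCast_mem K _) (prod_mem fun i _ => h9 _ _)
  rw [h6] at h2
  set D := M.det
  have hn0 : ((6 ^ 4 * 120 ^ 7 : ℤ) : ℂ) ≠ 0 := by norm_num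
  set n : ℂ := ((6 ^ 4 * 120 ^ 7 : ℤ) : ℂ) with hn
  have hnK : n ∈ K := intCast_mem K _
  have h10 : (D / n - Complex.I) * (D / n + Complex.I) = 0 := by
    have : (D / n - Complex.I) * (D / n + Complex.I) = (D * D) / (n * n) - Complex.I * Complex.I := by
      field_simp
      ring
    rw [this, Complex.I_mul_I]
    have h11 : D * D = - n ^ 2 := by
      rw [← h2]; ring
    rw [h11]
    field_simp
    ring
  rcases mul_eq_zero.mp h10 with h | h
  · have : Complex.I = D / n := (sub_eq_zero.mp h).symm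
    rw [this]
    exact K.div_mem h8 hnK
  · have : Complex.I = -(D / n) := by
      linear_combination h
    rw [this]
    exact K.neg_mem (K.div_mem h8 hnK)

/-- three pairwise unbiased unit vectors over `K`: six is of the form `z * conj z`. -/
theorem six_norm (K : Subfield ℂ) (u v w : E6) (h1 : ‖inner ℂ u v‖ ^ 2 = 1 / 6)
    (h2 : ‖inner ℂ v w‖ ^ 2 = 1 / 6) (h3 : ‖inner ℂ w u‖ ^ 2 = 1 / 6)
    (hu : Over (K : Set ℂ) u) (hv : Over (K : Set ℂ) v) (hw : Over (K : Set ℂ) w) :
    ∃ z ∈ K, z * conj z = 6 := by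
  refine ⟨36 * ∑ k, ∑ l, ∑ j, (u k * conj (u l)) * (v l * conj (v j)) * (w j * conj (w k)),
    ?_, ?_⟩
  · refine K.mul_mem (by exact_mod_cast natCast_mem K 36) ?_
    exact sum_mem fun k _ => sum_mem fun l _ => sum_mem fun j _ =>
      K.mul_mem (K.mul_mem (hu k l) (hv l j)) (hw j k)
  · have e1 : ∑ k, ∑ l, ∑ j, (u k * conj (u l)) * (v l * conj (v j)) * (w j * conj (w k)) =
        inner ℂ w u * (inner ℂ u v * inner ℂ v w) := by
      rw [inner_eq w u, Finset.sum_mul]
      refine Finset.sum_congr rfl fun k _ => ?_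
      rw [inner_eq u v, inner_eq v w, Finset.sum_mul_sum, Finset.mul_sum]
      refine Finset.sum_congr rfl fun l _ => ?_
      rw [Finset.mul_sum]
      refine Finset.sum_congr rfl fun j _ => ?_
      ring
    rw [e1]
    have e2 : ∀ x : ℂ, x * conj x = ((‖x‖ ^ 2 : ℝ) : ℂ) := by
      intro x
      rw [Complex.mul_conj, Complex.normSq_eq_norm_sq]
    have e3 : ∀ x y z : ℂ, 36 * (x * (y * z)) * conj (36 * (x * (y * z))) =
        1296 * ((x * conj x) * (y * conj y) * (z * conj z)) := by
      intro x y z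
      simp only [map_mul]
      have : conj (36 : ℂ) = 36 := by
        exact_mod_cast map_ofNat (starRingEnd ℂ) 36
      rw [this]
      ring
    rw [e3, e2, e2, e2, h1, h2, h3]
    norm_num

end Vale.Agent.H28.P355
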