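import Vale.Agent.H28.P355.A
import Vale.Agent.H22.P355.N4

/-! P355: `i` is not in the field of the `n`-th roots of unity unless `4 ∣ n`. -/

namespace Vale.Agent.H28.P355

open scoped ComplexConjugate IntermediateField

theorem adjoin_neg_le (ζ : ℂ) : ℚ⟮-ζ⟯ ≤ ℚ⟮ζ⟯ := by
  rw [IntermediateField.adjoin_simple_le_iff]
  exact neg_mem (IntermediateField.mem_adjoin_simple_self ℚ ζ)

theorem four_dvd (m : ℕ) (ζ : ℂ) (hζ : ζ ^ m = 1) (hI : Complex.I ∈ ℚ⟮ζ⟯) : 4 ∣ m := by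
  rcases Nat.even_or_odd m with he | ho
  · obtain ⟨t, ht⟩ := he
    rcases Nat.even_or_odd t with he' | ho'
    · obtain ⟨s, hs⟩ := he'
      exact ⟨s, by omega⟩
    · exfalso
      have h1 : (ζ ^ t - 1) * (ζ ^ t + 1) = 0 := by
        have : ζ ^ t * ζ ^ t = 1 := by rw [← pow_add, ← ht, hζ]
        linear_combination this
      rcases mul_eq_zero.mp h1 with h | h
      · exact Vale.Agent.H22.P355.I_not_mem t ho' ζ (sub_eq_zero.mp h) hI
      · have h2 : (-ζ) ^ t = 1 := by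
          rw [ho'.neg_pow]
          linear_combination -h
        refine Vale.Agent.H22.P355.I_not_mem t ho' (-ζ) h2 ?_
        have h3 := adjoin_neg_le (-ζ)
        rw [neg_neg] at h3
        exact h3 hI
  · exact absurd hI (Vale.Agent.H22.P355.I_not_mem m ho ζ hζ)

theorem cyc_le (n : ℕ) (hn : n ≠ 0) : ∃ ζ : ℂ, ζ ^ n = 1 ∧
    IntermediateField.adjoin ℚ {z : ℂ | z ^ n = 1} ≤ ℚ⟮ζ⟯ := by
  have h := Complex.isPrimitiveRoot_exp n hn
  refine ⟨_, h.pow_eq_one, ?_⟩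
  rw [IntermediateField.adjoin_le_iff]
  intro z hz
  haveI : NeZero n := ⟨hn⟩
  obtain ⟨i, -, hi⟩ := h.eq_pow_of_pow_eq_one (by simpa using hz)
  rw [← hi]
  exact pow_mem (IntermediateField.mem_adjoin_simple_self ℚ _) i

theorem four_dvd_cyc (n : ℕ)
    (hI : Complex.I ∈ IntermediateField.adjoin ℚ {z : ℂ | z ^ n = 1}) : 4 ∣ n := by
  rcases Nat.eq_zero_or_pos n with rfl | hn
  · exact dvd_zero 4
  · obtain ⟨ζ, hζ, hle⟩ := cyc_le n hn.ne'
    exact four_dvd n ζ hζ (hle hI)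

end Vale.Agent.H28.P355
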