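import Mathlib

/-!
P355: fields of definition of mutually unbiased bases in dimension six.
-/

namespace Vale.Agent.H28.P355

open scoped ComplexConjugate

/-- `N` pairwise mutually unbiased orthonormal bases of `ℂ^d`. -/
def MUB (d N : ℕ) (B : Fin N → OrthonormalBasis (Fin d) ℂ (EuclideanSpace ℂ (Fin d))) : Prop :=
  ∀ a b, a ≠ b → ∀ i j, ‖inner ℂ (B a i) (B b j)‖ ^ 2 = 1 / (d : ℝ)

/-- The projector `v v*` has all its entries `v_k * conj v_l` in the field `K`. -/
def Over {d : ℕ} (K : Set ℂ) (v : EuclideanSpace ℂ (Fin d)) : Prop :=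
  ∀ k l, v k * conj (v l) ∈ K

end Vale.Agent.H28.P355
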