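import Vale.Agent.H28.P355.Defs

/-! # P355: row N3 (norms from cyclotomic fields) -/

namespace Vale.Agent.H28.P355.N3

open scoped ComplexConjugate IntermediateField
open Polynomial

/-- Row N0 as a hypothesis -/
def Frob : Prop := ∀ (p : ℕ) (_ : p.Prime) (j : ℕ) (P : Polynomial ℤ),
    ∃ Q : Polynomial ℤ, P ^ (p ^ j) = Polynomial.expand ℤ (p ^ j) P + Polynomial.C (p : ℤ) * Q

theorem conj_aeval (ζ : ℂ) (P : ℤ[X]) : conj (aeval ζ P) = aeval (conj ζ) P := by
  rw [aeval_def, aeval_def, Polynomial.hom_eval₂]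
  congr 1
  exact RingHom.ext_int _ _

theorem integral_aeval {ζ : ℂ} (h : IsIntegral ℤ ζ) (P : ℤ[X]) : IsIntegral ℤ (aeval ζ P) := by
  have : aeval ζ P ∈ Algebra.adjoin ℤ {ζ} := by
    rw [Algebra.adjoin_singleton_eq_range_aeval]
    exact ⟨P, rfl⟩
  exact adjoin_le_integralClosure h this

theorem core (hfrob : Frob) (p m k : ℕ) (hp : p.Prime) (hk : 0 < k) (hm : m ∣ p ^ k + 1) (ζ : ℂ)
    (hζ : ζ ^ m = 1) : ∀ (M : ℕ) (P : ℤ[X]), M ≠ 0 →
      aeval ζ P * conj (aeval ζ P) = (M : ℂ) → ¬ Odd (padicValNat p M) := by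
  have hm0 : m ≠ 0 := by
    rintro rfl
    rw [zero_dvd_iff] at hm
    omega
  have hpk : ζ ^ (p ^ k + 1) = 1 := by
    obtain ⟨c, hc⟩ := hm
    rw [hc, pow_mul, hζ, one_pow]
  have hn : ‖ζ‖ = 1 := Complex.norm_eq_one_of_pow_eq_one hζ hm0
  have hz0 : ζ ≠ 0 := by
    intro h
    rw [h, norm_zero] at hn
    exact zero_ne_one hn
  have hzc : ζ * conj ζ = 1 := by
    rw [Complex.mul_conj, Complex.normSq_eq_norm_sq, hn]
    norm_num
  have hconj : ζ ^ (p ^ k) = conj ζ := by
    rw [pow_succ] at hpk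
    have : ζ ^ (p ^ k) * ζ = conj ζ * ζ := by rw [hpk, mul_comm, hzc]
    exact mul_right_cancel₀ hz0 this
  have hconj2 : ζ ^ (p ^ (2 * k)) = ζ := by
    rw [two_mul, pow_add, pow_mul, hconj, ← map_pow, hconj, Complex.conj_conj]
  have hint : IsIntegral ℤ ζ := by
    refine ⟨X ^ m - 1, ?_, ?_⟩
    · exact monic_X_pow_sub_C (1 : ℤ) hm0
    · simp [hζ]
  have hintc : IsIntegral ℤ (conj ζ) := by
    rw [← hconj]
    exact hint.pow _
  intro M
  induction M using Nat.strong_induction_on with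
  | _ M ih =>
    intro P hM hP hodd
    have hpM : p ∣ M := by
      by_contra h
      rw [padicValNat.eq_zero_of_not_dvd h] at hodd
      exact absurd hodd (by decide)
    obtain ⟨t, ht⟩ := hpM
    obtain ⟨Q, hQ⟩ := hfrob p hp k P
    obtain ⟨Q2, hQ2⟩ := hfrob p hp (2 * k) P
    set y := aeval ζ P with hy
    have e1 : y ^ (p ^ k) = conj y + p * aeval ζ Q := by
      have := congrArg (aeval ζ) hQ
      rw [map_pow, map_add, map_mul, expand_aeval, hconj, aeval_C] at this
      rw [hy, this, conj_aeval]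
      simp
    have e2 : y ^ (p ^ (2 * k)) = y + p * aeval ζ Q2 := by
      have := congrArg (aeval ζ) hQ2
      rw [map_pow, map_add, map_mul, expand_aeval, hconj2, aeval_C] at this
      rw [hy, this]
      simp
    have hle : p ^ k + 1 ≤ p ^ (2 * k) := by
      have h2 : 2 ≤ p ^ k := by
        calc 2 ≤ p := hp.two_le
          _ = p ^ 1 := (pow_one p).symm
          _ ≤ p ^ k := Nat.pow_le_pow_right hp.pos hk
      rw [two_mul, pow_add]
      nlinarith
    obtain ⟨r, hr⟩ := Nat.exists_eq_add_of_le hle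
    -- the quotient
    set Pw : ℤ[X] := (C (t : ℤ) + Q * P) * P ^ r - Q2 with hPw
    have hyw : y = p * aeval ζ Pw := by
      have e3 : y ^ (p ^ (2 * k)) = p * ((t + aeval ζ Q * y) * y ^ r) := by
        rw [hr, pow_add, pow_succ, e1]
        have : (conj y + p * aeval ζ Q) * y = p * (t + aeval ζ Q * y) := by
          have h1 : y * conj y = (p : ℂ) * t := by rw [hP, ht]; push_cast; ring
          linear_combination h1
        rw [this]; ring
      have e4 : aeval ζ Pw = (t + aeval ζ Q * y) * y ^ r - aeval ζ Q2 := by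
        rw [hPw]
        simp [hy]
      rw [e4]
      linear_combination e3 - e2
    set w := aeval ζ Pw with hw
    have hp0 : (p : ℂ) ≠ 0 := by exact_mod_cast hp.ne_zero
    have hww : (p : ℂ) ^ 2 * (w * conj w) = M := by
      rw [← hP, hyw, map_mul, Complex.conj_natCast]
      ring
    have hrat : w * conj w = (((M : ℚ) / (p : ℚ) ^ 2 : ℚ) : ℂ) := by
      push_cast
      field_simp
      rw [← hww]; ring
    have hI : IsIntegral ℤ (w * conj w) := by
      apply IsIntegral.mul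
      · exact integral_aeval hint Pw
      · rw [hw, conj_aeval]
        exact integral_aeval hintc Pw
    have hI2 : IsIntegral ℤ ((M : ℚ) / (p : ℚ) ^ 2 : ℚ) := by
      rw [hrat] at hI
      have hinj : Function.Injective (algebraMap ℚ ℂ) := (algebraMap ℚ ℂ).injective
      exact (isIntegral_algebraMap_iff hinj).1 (by simpa using hI)
    obtain ⟨s, hs⟩ := IsIntegrallyClosed.isIntegral_iff.1 hI2
    have hp0q : (p : ℚ) ≠ 0 := by exact_mod_cast hp.ne_zero
    have hsM : (s : ℚ) * (p : ℚ) ^ 2 = M := by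
      have : (s : ℚ) = (M : ℚ) / (p : ℚ) ^ 2 := by simpa using hs
      rw [this]; field_simp
    have hsM' : s * (p : ℤ) ^ 2 = M := by exact_mod_cast hsM
    have hs0 : 0 ≤ s := by
      have h1 : (0 : ℤ) < (p : ℤ) ^ 2 := by
        have := hp.pos
        positivity
      have h2 : (0 : ℤ) ≤ (M : ℤ) := by positivity
      rw [← hsM'] at h2
      exact nonneg_of_mul_nonneg_left h2 h1
    obtain ⟨s', rfl⟩ := Int.eq_ofNat_of_zero_le hs0
    have hMs : M = s' * p ^ 2 := by exact_mod_cast hsM'.symm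
    have hs'0 : s' ≠ 0 := by
      rintro rfl
      apply hM
      rw [hMs, zero_mul]
    have hlt : s' < M := by
      rw [hMs]
      have : 1 < p ^ 2 := Nat.one_lt_pow two_ne_zero hp.one_lt
      nlinarith [Nat.pos_of_ne_zero hs'0]
    have hval : padicValNat p M = padicValNat p s' + 2 := by
      have : Fact p.Prime := ⟨hp⟩
      rw [hMs, padicValNat.mul hs'0 (pow_ne_zero 2 hp.ne_zero), padicValNat.prime_pow]
    have hodd' : Odd (padicValNat p s') := by
      rw [hval] at hodd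
      rw [Nat.odd_iff] at hodd ⊢
      omega
    refine ih s' hlt Pw hs'0 ?_ hodd'
    rw [← hw, hrat, hMs]
    push_cast
    field_simp

/-- Row N3 (norms from cyclotomic fields). -/
theorem norm_ne (hfrob : Frob) (p m k : ℕ) (hp : p.Prime) (hk : 0 < k) (hm : m ∣ p ^ k + 1) (ζ : ℂ)
    (hζ : ζ ^ m = 1) (D : ℕ) (hD : Odd (padicValNat p D)) (z : ℂ) (hz : z ∈ ℚ⟮ζ⟯) :
    z * conj z ≠ (D : ℂ) := by
  intro hzD
  have hm0 : m ≠ 0 := by
    rintro rfl
    rw [zero_dvd_iff] at hm
    omega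
  have hint : IsIntegral ℚ ζ := by
    refine ⟨X ^ m - 1, ?_, ?_⟩
    · exact monic_X_pow_sub_C (1 : ℚ) hm0
    · simp [hζ]
  have hz2 : z ∈ (ℚ⟮ζ⟯).toSubalgebra := hz
  rw [IntermediateField.adjoin_simple_toSubalgebra_of_isAlgebraic hint.isAlgebraic,
    Algebra.adjoin_singleton_eq_range_aeval] at hz2
  obtain ⟨P, hP⟩ := hz2
  have hP' : aeval ζ P = z := hP
  obtain ⟨b, hb⟩ := IsLocalization.integerNormalization_map_to_map (nonZeroDivisors ℤ) P
  set P' := IsLocalization.integerNormalization (nonZeroDivisors ℤ) P with hP'def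
  have hb0 : (b : ℤ) ≠ 0 := nonZeroDivisors.ne_zero b.2
  have hy : aeval ζ P' = ((b : ℤ) : ℂ) * z := by
    have h1 : aeval ζ (P'.map (algebraMap ℤ ℚ)) = aeval ζ P' := aeval_map_algebraMap ℚ ζ P'
    rw [← h1, hb, map_zsmul, hP']
    simp
  have hD0 : D ≠ 0 := by
    rintro rfl
    simp at hD
  set n := (b : ℤ).natAbs with hn
  have hn0 : n ≠ 0 := Int.natAbs_ne_zero.2 hb0
  refine core hfrob p m k hp hk hm ζ hζ (D * n ^ 2) P' (mul_ne_zero hD0 (pow_ne_zero 2 hn0)) ?_ ?_
  · rw [hy, map_mul]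
    have h2 : ((n : ℂ)) ^ 2 = (((b : ℤ) : ℂ)) ^ 2 := by
      have : ((n : ℤ)) ^ 2 = (b : ℤ) ^ 2 := Int.natAbs_sq _
      exact_mod_cast congrArg (Int.cast : ℤ → ℂ) this
    have h3 : conj (((b : ℤ) : ℂ)) = ((b : ℤ) : ℂ) := by simp
    rw [h3]
    push_cast
    rw [h2, ← hzD]
    ring
  · have : Fact p.Prime := ⟨hp⟩
    rw [padicValNat.mul hD0 (pow_ne_zero 2 hn0), padicValNat.pow]
    rw [Nat.odd_iff] at hD ⊢
    omega

end Vale.Agent.H28.P355.N3
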