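import Vale.Agent.H28.P355.Defs

namespace Vale.Agent.H28.P355

open scoped ComplexConjugate IntermediateField

/-- Row N0 (Frobenius). -/
theorem frob (p : ℕ) (hp : p.Prime) (j : ℕ) (P : Polynomial ℤ) :
    ∃ Q : Polynomial ℤ, P ^ (p ^ j) = Polynomial.expand ℤ (p ^ j) P + Polynomial.C (p : ℤ) * Q := by
  sorry

/-- Row N3 (norms from cyclotomic fields). -/
theorem norm_ne (p m k : ℕ) (hp : p.Prime) (hk : 0 < k) (hm : m ∣ p ^ k + 1) (ζ : ℂ)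
    (hζ : ζ ^ m = 1) (D : ℕ) (hD : Odd (padicValNat p D)) (z : ℂ) (hz : z ∈ ℚ⟮ζ⟯) :
    z * conj z ≠ (D : ℂ) := by
  sorry

/-- Row N4. -/
theorem I_not_mem (m : ℕ) (hm : Odd m) (ζ : ℂ) (hζ : ζ ^ m = 1) : Complex.I ∉ ℚ⟮ζ⟯ := by
  sorry

end Vale.Agent.H28.P355
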